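import Mathlib

/-!
# Row 255 (helper17): a basis adapted to two flags
-/

set_option autoImplicit false

namespace Crest.Agent.N255.Wd

open Set Submodule Module

variable {k : Type*} [Field k] {M : Type*} [AddCommGroup M] [Module k M]

/-- a function to `ℕ` attains its minimum on a nonempty set -/
theorem exists_min_nat {α : Type*} {s : Set α} (f : α → ℕ) (hs : s.Nonempty) :
    ∃ a ∈ s, ∀ b ∈ s, f a ≤ f b := by
  obtain ⟨_, ⟨a, ha, rfl⟩, hm⟩ := wellFounded_lt.has_min (f '' s) (hs.image f)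
  exact ⟨a, ha, fun b hb => not_lt.1 (hm _ ⟨b, hb, rfl⟩)⟩

theorem chain_min {T : Submodule k M} [FiniteDimensional k T] {𝒜 : Set (Submodule k M)}
    (h : IsChain (· ≤ ·) 𝒜) (hne : 𝒜.Nonempty) : ∃ A ∈ 𝒜, ∀ B ∈ 𝒜, A ⊓ T ≤ B := by
  obtain ⟨A, hA, hm⟩ := exists_min_nat (fun A : Submodule k M => finrank k ↥(A ⊓ T)) hne
  refine ⟨A, hA, fun B hB => ?_⟩
  rcases h.total hA hB with e | e
  · exact inf_le_left.trans e
  · have : FiniteDimensional k ↥(A ⊓ T) := finiteDimensional_of_le inf_le_right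
    have e' : B ⊓ T = A ⊓ T := eq_of_le_of_finrank_le (inf_le_inf_right T e) (hm B hB)
    exact e' ▸ inf_le_left

theorem chain_max {T : Submodule k M} [FiniteDimensional k T] {𝒜 : Set (Submodule k M)}
    (h : IsChain (· ≤ ·) 𝒜) (hne : 𝒜.Nonempty) : ∃ A ∈ 𝒜, ∀ B ∈ 𝒜, B ⊓ T ≤ A := by
  obtain ⟨A, hA, hm⟩ :=
    exists_min_nat (fun A : Submodule k M => finrank k T - finrank k ↥(A ⊓ T)) hne
  refine ⟨A, hA, fun B hB => ?_⟩
  rcases h.total hA hB with e | e
  · have : FiniteDimensional k ↥(B ⊓ T) := finiteDimensional_of_le inf_le_right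
    have h1 : finrank k ↥(B ⊓ T) ≤ finrank k T := finrank_mono inf_le_right
    have h2 : finrank k ↥(A ⊓ T) ≤ finrank k T := finrank_mono inf_le_right
    have h3 := hm B hB
    have e' : A ⊓ T = B ⊓ T := eq_of_le_of_finrank_le (inf_le_inf_right T e) (by omega)
    exact e' ▸ inf_le_left
  · exact inf_le_left.trans e

theorem isChain_top {𝒜 : Set (Submodule k M)} (h : IsChain (· ≤ ·) 𝒜) :
    IsChain (· ≤ ·) (insert ⊤ 𝒜) := h.insert fun _ _ _ => .inr le_top

theorem isChain_bot {𝒜 : Set (Submodule k M)} (h : IsChain (· ≤ ·) 𝒜) :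
    IsChain (· ≤ ·) (insert ⊥ 𝒜) := h.insert fun _ _ _ => .inl bot_le

theorem two_aux {𝒜 ℬ : Set (Submodule k M)} (hA : IsChain (· ≤ ·) 𝒜) (hB : IsChain (· ≤ ·) ℬ)
    (n : ℕ) : ∀ (T : Submodule k M) [FiniteDimensional k T], finrank k T = n →
    ∃ s : Finset M, LinearIndepOn k id (s : Set M) ∧ span k (s : Set M) = T ∧
      ∀ C ∈ 𝒜 ∪ ℬ, C ⊓ T = span k ((s : Set M) ∩ C) := by
  classical
  induction n with
  | zero =>
    intro T _ h
    obtain rfl : T = ⊥ := finrank_eq_zero.1 h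
    exact ⟨∅, by simp, by simp, fun C _ => by simp⟩
  | succ n ih =>
    intro T _ h
    have hT : ¬ T ≤ ⊥ := fun e => by
      obtain rfl := le_bot_iff.1 e
      simp at h
    obtain ⟨A, ⟨-, hAT⟩, hAm⟩ := chain_max (T := T) (𝒜 := {A ∈ insert ⊥ 𝒜 | ¬ T ≤ A})
      ((isChain_bot hA).mono (sep_subset _ _)) ⟨⊥, mem_insert _ _, hT⟩
    obtain ⟨v₀, hv₀, hv₀A⟩ := SetLike.not_le_iff_exists.1 hAT
    obtain ⟨f, hf, hfA⟩ := exists_le_ker_of_notMem hv₀A
    obtain ⟨B, ⟨-, hBT⟩, hBm⟩ := chain_min (T := T)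
      (𝒜 := {B ∈ insert ⊤ ℬ | ¬ B ⊓ T ≤ LinearMap.ker f})
      ((isChain_top hB).mono (sep_subset _ _)) ⟨⊤, mem_insert _ _, fun e => hf (e ⟨trivial, hv₀⟩)⟩
    obtain ⟨v, hv, hfv⟩ := SetLike.not_le_iff_exists.1 hBT
    rw [LinearMap.mem_ker] at hfv
    have key : ∀ C : Submodule k M, v ∈ C →
        C ⊓ T = span k {v} ⊔ C ⊓ (T ⊓ LinearMap.ker f) := fun C hC => by
      refine le_antisymm (fun x hx => mem_sup.2 ⟨(f x / f v) • v,
        smul_mem _ _ (mem_span_singleton_self v), x - (f x / f v) • v,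
        mem_inf.2 ⟨sub_mem hx.1 (smul_mem _ _ hC), mem_inf.2 ⟨sub_mem hx.2 (smul_mem _ _ hv.2), ?_⟩⟩,
        by abel⟩)
        (sup_le ((span_singleton_le_iff_mem _ _).2 ⟨hC, hv.2⟩) (inf_le_inf_left _ inf_le_left))
      simp [LinearMap.mem_ker, div_mul_cancel₀ _ hfv]
    have : FiniteDimensional k ↥(T ⊓ LinearMap.ker f) := finiteDimensional_of_le inf_le_left
    have hvH : v ∉ T ⊓ LinearMap.ker f := fun e => hfv e.2
    have hv0 : v ≠ 0 := fun e => hfv (by rw [e, map_zero])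
    have hk := key ⊤ trivial
    simp only [top_inf_eq] at hk
    have hd : finrank k ↥(T ⊓ LinearMap.ker f) = n := by
      have h1 := finrank_sup_add_finrank_inf_eq (span k {v}) (T ⊓ LinearMap.ker f)
      rw [← hk, finrank_span_singleton hv0, h,
        (disjoint_span_singleton' hv0).2 hvH |>.symm.eq_bot, finrank_bot] at h1
      omega
    obtain ⟨s, h1, h2, h3⟩ := ih _ hd
    refine ⟨insert v s, ?_, ?_, fun C hC => ?_⟩
    · rw [Finset.coe_insert]
      exact h1.id_insert (by rwa [h2])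
    · rw [Finset.coe_insert, span_insert, h2, ← hk]
    · have : C ⊓ T ≤ LinearMap.ker f ∨ v ∈ C := by
        rcases hC with hC | hC
        · by_cases e : T ≤ C
          · exact .inr (e hv.2)
          · exact .inl ((hAm C ⟨mem_insert_of_mem _ hC, e⟩).trans hfA)
        · by_cases e : C ⊓ T ≤ LinearMap.ker f
          · exact .inl e
          · exact .inr (hBm C ⟨mem_insert_of_mem _ hC, e⟩ hv)
      rcases this with e | e
      · have hvC : v ∉ (C : Set M) := fun e' => hfv (e ⟨e', hv.2⟩)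
        rw [Finset.coe_insert, insert_inter_of_notMem hvC, ← h3 C hC, ← inf_assoc]
        exact (inf_eq_left.2 e).symm
      · rw [Finset.coe_insert, insert_inter_of_mem (show v ∈ (C : Set M) from e), span_insert,
          ← h3 C hC, key C e]

/-- **two flags have a common adapted basis** -/
theorem two_flags {𝒜 ℬ : Set (Submodule k M)} (hA : IsChain (· ≤ ·) 𝒜) (hB : IsChain (· ≤ ·) ℬ)
    (T : Submodule k M) (hT : T.FG) :
    ∃ s : Finset M, LinearIndepOn k id (s : Set M) ∧ span k (s : Set M) = T ∧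
      ∀ C ∈ 𝒜 ∪ ℬ, C ⊓ T = span k ((s : Set M) ∩ C) :=
  have : FiniteDimensional k T := Module.Finite.iff_fg.2 hT
  two_aux hA hB _ T rfl

/-- basis form in a finite dimensional space: `x ∈ C` iff all its coordinates outside `C` vanish -/
theorem two_basis [FiniteDimensional k M] {𝒜 ℬ : Set (Submodule k M)} (hA : IsChain (· ≤ ·) 𝒜)
    (hB : IsChain (· ≤ ·) ℬ) : ∃ (n : ℕ) (b : Basis (Fin n) k M),
      ∀ C ∈ 𝒜 ∪ ℬ, ∀ x, x ∈ C ↔ ∀ i, b i ∉ C → b.repr x i = 0 := by
  obtain ⟨s, h1, h2, h3⟩ := two_flags hA hB ⊤ Module.Finite.fg_top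
  let b : Basis s k M := Basis.mk h1 (by
    rw [← h2]; exact span_mono fun x hx => ⟨⟨x, hx⟩, rfl⟩)
  have hb : ∀ i, b i = i := fun i => Basis.mk_apply _ _ i
  refine ⟨s.card, b.reindex s.equivFin, fun C hC x => ?_⟩
  have e : (s : Set M) ∩ C = b '' {i | b i ∈ C} := by
    ext y
    exact ⟨fun h => ⟨⟨y, h.1⟩, by change b _ ∈ C; rw [hb]; exact h.2, hb _⟩,
      fun ⟨i, hi, e⟩ => e ▸ ⟨hb i ▸ i.2, hi⟩⟩
  have := h3 C hC
  rw [inf_top_eq, e] at this
  constructor
  · intro hx i hi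
    rw [this, b.mem_span_image] at hx
    rw [Basis.repr_reindex_apply]
    by_contra h0
    exact hi (by rw [Basis.reindex_apply]; exact hx (Finsupp.mem_support_iff.2 h0))
  · intro hx
    rw [this, b.mem_span_image]
    intro i hi
    by_contra h0
    have := hx (s.equivFin i) (by rw [Basis.reindex_apply, Equiv.symm_apply_apply]; exact h0)
    rw [Basis.repr_reindex_apply, Equiv.symm_apply_apply] at this
    exact Finsupp.mem_support_iff.1 hi this

end Crest.Agent.N255.Wd
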