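import Crest.Agent.N255.Wi.Abs

/-!
# Row 255 (helper17): windows on which finitely many finite rank functions are constant
-/

set_option autoImplicit false

namespace Crest.Agent.N255.Wd

open Set Wi

/-- a property of windows `[a, b]` which is inherited by subwindows and occurs in every interval
inside `[l, r]` -/
structure DenseIn (l r : ℝ) (P : ℝ → ℝ → Prop) : Prop where
  sub : ∀ a b a' b', a ≤ a' → a' < b' → b' ≤ b → P a b → P a' b'
  ex : ∀ a b, l ≤ a → a < b → b ≤ r → ∃ a' b', a < a' ∧ a' < b' ∧ b' < b ∧ P a' b'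

namespace DenseIn

variable {l r : ℝ} {P Q : ℝ → ℝ → Prop}

theorem triv : DenseIn l r fun _ _ => True :=
  ⟨fun _ _ _ _ _ _ _ _ => trivial, fun a b _ h _ =>
    ⟨(2 * a + b) / 3, (a + 2 * b) / 3, by linarith, by linarith, by linarith, trivial⟩⟩

theorem and (h : DenseIn l r P) (h' : DenseIn l r Q) : DenseIn l r fun a b => P a b ∧ Q a b := by
  refine ⟨fun a b a' b' h1 h2 h3 p => ⟨h.sub a b a' b' h1 h2 h3 p.1, h'.sub a b a' b' h1 h2 h3 p.2⟩,
    fun a b h1 h2 h3 => ?_⟩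
  obtain ⟨c, d, k1, k2, k3, p⟩ := h.ex a b h1 h2 h3
  obtain ⟨e, f, m1, m2, m3, q⟩ := h'.ex c d (by linarith) k2 (by linarith)
  exact ⟨e, f, by linarith, m2, by linarith, h.sub c d e f m1.le m2 m3.le p, q⟩

theorem congr (h : DenseIn l r P) (e : ∀ a b, P a b ↔ Q a b) : DenseIn l r Q := by
  have : P = Q := funext fun a => funext fun b => propext (e a b)
  exact this ▸ h

theorem finset {ι : Type*} {P : ι → ℝ → ℝ → Prop} (s : Finset ι) (h : ∀ i ∈ s, DenseIn l r (P i)) :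
    DenseIn l r fun a b => ∀ i ∈ s, P i a b := by
  classical
  induction s using Finset.induction_on with
  | empty => exact triv.congr fun a b => by simp
  | insert i s _ ih =>
    exact ((h i (Finset.mem_insert_self i s)).and
      (ih fun j hj => h j (Finset.mem_insert_of_mem hj))).congr fun a b => by simp

theorem all {ι : Type*} [Finite ι] {P : ι → ℝ → ℝ → Prop} (h : ∀ i, DenseIn l r (P i)) :
    DenseIn l r fun a b => ∀ i, P i a b := by
  have := Fintype.ofFinite ι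
  exact (finset Finset.univ fun i _ => h i).congr fun a b => by simp

theorem mono (h : DenseIn l r P) {l' r' : ℝ} (hl : l ≤ l') (hr : r' ≤ r) : DenseIn l' r' P :=
  ⟨h.sub, fun a b h1 h2 h3 => h.ex a b (hl.trans h1) h2 (h3.trans hr)⟩

theorem exists_win (h : DenseIn l r P) (hlr : l < r) :
    ∃ a b, l < a ∧ a < b ∧ b < r ∧ P a b := h.ex l r le_rfl hlr le_rfl

end DenseIn

/-- a monotone function to `ℕ` is constant on a subwindow -/
theorem dense_nat {l r : ℝ} {f : ℝ → ℕ} (hf : MonotoneOn f (Ioo l r) ∨ AntitoneOn f (Ioo l r)) :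
    DenseIn l r fun a b => ∀ s ∈ Icc a b, ∀ t ∈ Icc a b, f s = f t := by
  refine ⟨fun a b a' b' h1 _ h3 p s hs t ht => p s ⟨h1.trans hs.1, hs.2.trans h3⟩ t
    ⟨h1.trans ht.1, ht.2.trans h3⟩, fun a b h1 h2 h3 => ?_⟩
  obtain ⟨x, hx, hm⟩ := (wellFounded_lt.has_min (f '' Ioo a b)
    ((nonempty_Ioo.2 h2).image f))
  obtain ⟨x, hx, rfl⟩ := hx
  have hmin : ∀ y ∈ Ioo a b, f x ≤ f y := fun y hy => not_lt.1 (hm _ ⟨y, hy, rfl⟩)
  have hI : ∀ y ∈ Ioo a b, y ∈ Ioo l r := fun y hy => ⟨h1.trans_lt hy.1, hy.2.trans_le h3⟩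
  rcases hf with hf | hf
  · have key : ∀ s ∈ Icc ((a + x) / 2) x, f s = f x := fun s hs => by
      have hs' : s ∈ Ioo a b := ⟨by linarith [hs.1, hx.1], hs.2.trans_lt hx.2⟩
      exact le_antisymm (hf (hI s hs') (hI x hx) hs.2) (hmin s hs')
    exact ⟨(a + x) / 2, x, by linarith [hx.1], by linarith [hx.1], hx.2,
      fun s hs t ht => (key s hs).trans (key t ht).symm⟩
  · have key : ∀ s ∈ Icc x ((x + b) / 2), f s = f x := fun s hs => by
      have hs' : s ∈ Ioo a b := ⟨hx.1.trans_le hs.1, by linarith [hs.2, hx.2]⟩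
      exact le_antisymm (hf (hI x hx) (hI s hs') hs.1) (hmin s hs')
    exact ⟨x, (x + b) / 2, hx.1, by linarith [hx.2], by linarith [hx.2],
      fun s hs t ht => (key s hs).trans (key t ht).symm⟩

section FR

variable {k : Type*} [Field k] {M : Type*} [AddCommGroup M] [Module k M]

/-- the rank of `Z` modulo `B` -/
noncomputable def rk (Z B : Submodule k M) : ℕ := Module.finrank k (Z.map B.mkQ)

theorem rk_mono {Z Z' B : Submodule k M} (h : FR Z' B) (hZ : Z ≤ Z') : rk Z B ≤ rk Z' B := by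
  have : FiniteDimensional k (Z'.map B.mkQ) := Module.Finite.iff_fg.2 h.fg_map_mkQ
  exact Submodule.finrank_mono (Submodule.map_mono hZ)

theorem le_of_rk {Z Z' B : Submodule k M} (h : FR Z' B) (hZ : Z ≤ Z') (e : rk Z B = rk Z' B) :
    Z' ≤ Z ⊔ B := by
  have : FiniteDimensional k (Z'.map B.mkQ) := Module.Finite.iff_fg.2 h.fg_map_mkQ
  have e' := Submodule.eq_of_le_of_finrank_eq (Submodule.map_mono (f := B.mkQ) hZ) e
  calc Z' ≤ (Z'.map B.mkQ).comap B.mkQ := Submodule.le_comap_map _ _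
    _ = Z ⊔ B := by rw [← e', Submodule.comap_map_mkQ, sup_comm]

/-- **window lemma**: a monotone (or antitone) family of finite rank modulo `B` is constant modulo
`B` on a subwindow -/
theorem dense_fr {l r : ℝ} {Z : ℝ → Submodule k M} {B : Submodule k M}
    (hZ : MonotoneOn Z (Ioo l r) ∨ AntitoneOn Z (Ioo l r)) (h : ∀ t ∈ Ioo l r, FR (Z t) B) :
    DenseIn l r fun a b => ∀ s ∈ Icc a b, ∀ t ∈ Icc a b, Z s ≤ Z t ⊔ B := by
  have hd := dense_nat (l := l) (r := r) (f := fun t => rk (Z t) B) (hZ.imp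
    (fun m s hs t ht hst => rk_mono (h t ht) (m hs ht hst))
    fun m s hs t ht hst => rk_mono (h s hs) (m hs ht hst))
  refine ⟨fun a b a' b' h1 _ h3 p s hs t ht => p s ⟨h1.trans hs.1, hs.2.trans h3⟩ t
    ⟨h1.trans ht.1, ht.2.trans h3⟩, fun a b h1 h2 h3 => ?_⟩
  · obtain ⟨a', b', k1, k2, k3, p⟩ := hd.ex a b h1 h2 h3
    refine ⟨a', b', k1, k2, k3, fun s hs t ht => ?_⟩
    have ha : l < a' := h1.trans_lt k1
    have hb : b' < r := k3.trans_le h3
    have hs' : s ∈ Ioo l r := ⟨ha.trans_le hs.1, hs.2.trans_lt hb⟩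
    have ht' : t ∈ Ioo l r := ⟨ha.trans_le ht.1, ht.2.trans_lt hb⟩
    have : Z s ≤ Z t ∨ Z t ≤ Z s := by
      rcases hZ with m | m <;> rcases le_total s t with h | h
      exacts [.inl (m hs' ht' h), .inr (m ht' hs' h), .inr (m hs' ht' h), .inl (m ht' hs' h)]
    rcases this with h' | h'
    · exact h'.trans le_sup_left
    · exact le_of_rk (h s hs') h' (p t ht s hs)

end FR

/-- nested windows: the condition on the next window may depend on the step and on the window -/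
theorem exists_nest {l₀ r₀ : ℝ} (h₀ : l₀ < r₀) (P : ℕ → ℝ → ℝ → ℝ → ℝ → Prop)
    (h : ∀ n l r, l₀ ≤ l → l < r → r ≤ r₀ → ∃ a b, l < a ∧ a < b ∧ b < r ∧ P n l r a b) :
    ∃ l r : ℕ → ℝ, l 0 = l₀ ∧ r 0 = r₀ ∧ StrictMono l ∧ StrictAnti r ∧ (∀ m n, l m < r n) ∧
      ∀ n, P n (l n) (r n) (l (n + 1)) (r (n + 1)) := by
  choose! A B h1 h2 h3 h4 using h
  let w : ℕ → ℝ × ℝ := fun n => Nat.rec (l₀, r₀) (fun n p => (A n p.1 p.2, B n p.1 p.2)) n
  have hw : ∀ n, l₀ ≤ (w n).1 ∧ (w n).1 < (w n).2 ∧ (w n).2 ≤ r₀ := by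
    intro n
    induction n with
    | zero => exact ⟨le_rfl, h₀, le_rfl⟩
    | succ n ih =>
      exact ⟨ih.1.trans (h1 n _ _ ih.1 ih.2.1 ih.2.2).le, h2 n _ _ ih.1 ih.2.1 ih.2.2,
        (h3 n _ _ ih.1 ih.2.1 ih.2.2).le.trans ih.2.2⟩
  have hl : StrictMono fun n => (w n).1 :=
    strictMono_nat_of_lt_succ fun n => h1 n _ _ (hw n).1 (hw n).2.1 (hw n).2.2
  have hr : StrictAnti fun n => (w n).2 :=
    strictAnti_nat_of_succ_lt fun n => h3 n _ _ (hw n).1 (hw n).2.1 (hw n).2.2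
  refine ⟨fun n => (w n).1, fun n => (w n).2, rfl, rfl, hl, hr, fun m n => ?_,
    fun n => h4 n _ _ (hw n).1 (hw n).2.1 (hw n).2.2⟩
  rcases le_total m n with h | h
  · exact (hl.monotone h).trans_lt (hw n).2.1
  · exact (hw m).2.1.trans_le (hr.antitone h)

/-- nested windows from dense properties -/
theorem exists_nest_dense {l₀ r₀ : ℝ} (h₀ : l₀ < r₀) (P : ℕ → ℝ → ℝ → ℝ → ℝ → Prop)
    (h : ∀ n l r, l₀ ≤ l → l < r → r ≤ r₀ → DenseIn l r (P n l r)) :
    ∃ l r : ℕ → ℝ, l 0 = l₀ ∧ r 0 = r₀ ∧ StrictMono l ∧ StrictAnti r ∧ (∀ m n, l m < r n) ∧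
      ∀ n, P n (l n) (r n) (l (n + 1)) (r (n + 1)) :=
  exists_nest h₀ P fun n l r h1 h2 h3 => (h n l r h1 h2 h3).exists_win h2

end Crest.Agent.N255.Wd
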